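import Mathlib

set_option autoImplicit false

/-!
# P181, O2, growth of the number of states by plain letters (helper810)

A state is a multiset of letters `(i, u)`, `i` = degree in row two, `u` = tail degree. A letter
`(y, 0)` is plain. Adding two plain letters `y` and `z - y` multiplies the number of states by
about `z ^ 2 / (4 w)`.
-/

namespace Vale.Agent.P181.O2.H810

/-- distinct members of a multiset have at most the sum of the multiset -/
theorem sum_fst_le {U : Multiset (ℕ × ℕ)} {T : Finset (ℕ × ℕ)} (h : ∀ x ∈ T, x ∈ U) :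
    ∑ x ∈ T, x.1 ≤ (U.map Prod.fst).sum := by
  classical
  have h1 : T.val ≤ U := (Multiset.le_iff_subset T.nodup).2 fun x hx => h x hx
  obtain ⟨r, hr⟩ := Multiset.le_iff_exists_add.1 h1
  rw [hr, Multiset.map_add, Multiset.sum_add]
  exact Nat.le_add_right _ _

/-- the pairs of plain letters `y`, `z - y` of a state -/
theorem pairs_le {U : Multiset (ℕ × ℕ)} {z : ℕ} {Y : Finset ℕ} (hY : ∀ y ∈ Y, 2 * y < z)
    (h1 : ∀ y ∈ Y, (y, 0) ∈ U) (h2 : ∀ y ∈ Y, (z - y, 0) ∈ U) :
    Y.card * z ≤ (U.map Prod.fst).sum := by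
  classical
  have hd : Disjoint (Y.image fun y => ((y, 0) : ℕ × ℕ)) (Y.image fun y => ((z - y, 0) : ℕ × ℕ)) := by
    rw [Finset.disjoint_left]
    intro x hx hx'
    rw [Finset.mem_image] at hx hx'
    obtain ⟨y, hy, rfl⟩ := hx
    obtain ⟨y', hy', h⟩ := hx'
    have h3 := hY y hy
    have h4 := hY y' hy'
    have h5 : z - y' = y := congrArg Prod.fst h
    omega
  have h3 := sum_fst_le (U := U) (T := (Y.image fun y => ((y, 0) : ℕ × ℕ)) ∪
    (Y.image fun y => ((z - y, 0) : ℕ × ℕ))) (by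
      intro x hx
      rw [Finset.mem_union, Finset.mem_image, Finset.mem_image] at hx
      rcases hx with ⟨y, hy, rfl⟩ | ⟨y, hy, rfl⟩
      · exact h1 y hy
      · exact h2 y hy)
  rw [Finset.sum_union hd, Finset.sum_image, Finset.sum_image, ← Finset.sum_add_distrib] at h3
  · refine le_trans (le_of_eq ?_) h3
    rw [Finset.sum_congr rfl (g := fun _ => z), Finset.sum_const, smul_eq_mul]
    intro y hy
    have := hY y hy
    simp only
    omega
  · intro y hy y' hy' h
    have h4 := hY y hy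
    have h5 := hY y' hy'
    have h6 : z - y = z - y' := congrArg Prod.fst h
    omega
  · intro y hy y' hy' h
    exact congrArg Prod.fst h

/-- **Growth.** `P N` = states with row-two degree `N`, stable under adding plain letters `≥ 2`. -/
theorem growth (cc : Multiset (ℕ × ℕ) → ℕ) (P : ℕ → Finset (Multiset (ℕ × ℕ)))
    (hcc : ∀ U y, 2 ≤ y → cc U ≤ cc ((y, 0) ::ₘ U))
    (hP : ∀ N U y, 2 ≤ y → U ∈ P N → ((y, 0) ::ₘ U) ∈ P (N + y))
    (hsum : ∀ N, ∀ U ∈ P N, (U.map Prod.fst).sum = N)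
    {N z w : ℕ} (hz : 8 ≤ z) (hzN : z ≤ N) (hN : N ≤ w) :
    z ^ 2 * ∑ U ∈ P (N - z), cc U ≤ 4 * w * ∑ U ∈ P N, cc U := by
  classical
  set C : Finset ℕ := (Finset.range z).filter fun y => 2 ≤ y ∧ 2 * y < z with hC
  have hCcard : z ≤ 4 * C.card := by
    have h1 : Finset.Ico 2 ((z + 1) / 2) ⊆ C := by
      intro y hy
      rw [Finset.mem_Ico] at hy
      rw [hC, Finset.mem_filter, Finset.mem_range]
      omega
    have h2 := Finset.card_le_card h1
    rw [Nat.card_Ico] at h2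
    omega
  have hCm : ∀ y ∈ C, 2 ≤ y ∧ 2 * y < z := by
    intro y hy
    rw [hC, Finset.mem_filter] at hy
    exact hy.2
  let f : Multiset (ℕ × ℕ) × ℕ → Multiset (ℕ × ℕ) := fun p => (p.2, 0) ::ₘ (z - p.2, 0) ::ₘ p.1
  have hf : ∀ p ∈ P (N - z) ×ˢ C, f p ∈ P N := by
    intro p hp
    rw [Finset.mem_product] at hp
    have h1 := hCm _ hp.2
    have h2 := hP _ _ (z - p.2) (by omega) hp.1
    have h3 := hP _ _ p.2 h1.1 h2
    have h4 : N - z + (z - p.2) + p.2 = N := by omega
    rw [h4] at h3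
    exact h3
  have h1 : C.card * ∑ U ∈ P (N - z), cc U ≤ ∑ p ∈ P (N - z) ×ˢ C, cc (f p) := by
    rw [Finset.sum_product, Finset.mul_sum]
    refine Finset.sum_le_sum fun U hU => ?_
    rw [← smul_eq_mul, ← Finset.sum_const]
    refine Finset.sum_le_sum fun y hy => ?_
    have h2 := hCm y hy
    exact (hcc U (z - y) (by omega)).trans (hcc _ y h2.1)
  have h2 : z * ∑ p ∈ P (N - z) ×ˢ C, cc (f p) ≤ w * ∑ U ∈ P N, cc U := by
    rw [← Finset.sum_fiberwise_of_maps_to hf, Finset.mul_sum, Finset.mul_sum]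
    refine Finset.sum_le_sum fun U' hU' => ?_
    have h3 : ∑ p ∈ (P (N - z) ×ˢ C).filter (fun p => f p = U'), cc (f p) =
        ((P (N - z) ×ˢ C).filter (fun p => f p = U')).card * cc U' := by
      rw [← smul_eq_mul, ← Finset.sum_const]
      refine Finset.sum_congr rfl fun p hp => ?_
      rw [(Finset.mem_filter.1 hp).2]
    rw [h3, ← mul_assoc]
    refine Nat.mul_le_mul_right _ ?_
    have hinj : Set.InjOn Prod.snd
        (((P (N - z) ×ˢ C).filter (fun p => f p = U') : Finset _) : Set (Multiset (ℕ × ℕ) × ℕ)) := by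
      intro p hp p' hp' h
      rw [Finset.mem_coe, Finset.mem_filter] at hp hp'
      obtain ⟨U, y⟩ := p
      obtain ⟨V, y'⟩ := p'
      simp only at h
      subst h
      have h4 := hp.2.trans hp'.2.symm
      simp only [f] at h4
      rw [Multiset.cons_inj_right, Multiset.cons_inj_right] at h4
      rw [h4]
    rw [← Finset.card_image_of_injOn hinj, mul_comm]
    refine (pairs_le (U := U') ?_ ?_ ?_).trans (le_of_eq_of_le (hsum N U' hU') hN)
    · intro y hy
      rw [Finset.mem_image] at hy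
      obtain ⟨p, hp, rfl⟩ := hy
      rw [Finset.mem_filter, Finset.mem_product] at hp
      exact (hCm _ hp.1.2).2
    · intro y hy
      rw [Finset.mem_image] at hy
      obtain ⟨p, hp, rfl⟩ := hy
      rw [Finset.mem_filter] at hp
      rw [← hp.2]
      exact Multiset.mem_cons_self _ _
    · intro y hy
      rw [Finset.mem_image] at hy
      obtain ⟨p, hp, rfl⟩ := hy
      rw [Finset.mem_filter] at hp
      rw [← hp.2]
      exact Multiset.mem_cons_of_mem (Multiset.mem_cons_self _ _)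
  calc z ^ 2 * ∑ U ∈ P (N - z), cc U = z * (z * ∑ U ∈ P (N - z), cc U) := by ring
    _ ≤ z * (4 * C.card * ∑ U ∈ P (N - z), cc U) :=
        Nat.mul_le_mul_left _ (Nat.mul_le_mul_right _ hCcard)
    _ = 4 * (z * (C.card * ∑ U ∈ P (N - z), cc U)) := by ring
    _ ≤ 4 * (z * ∑ p ∈ P (N - z) ×ˢ C, cc (f p)) :=
        Nat.mul_le_mul_left _ (Nat.mul_le_mul_left _ h1)
    _ ≤ 4 * (w * ∑ U ∈ P N, cc U) := Nat.mul_le_mul_left _ h2
    _ = 4 * w * ∑ U ∈ P N, cc U := by ring

/-- the iterate: `k` steps of length `z` gain `q ^ k`, `4 q w ≤ z ^ 2` -/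
theorem growth_pow (cc : Multiset (ℕ × ℕ) → ℕ) (P : ℕ → Finset (Multiset (ℕ × ℕ)))
    (hcc : ∀ U y, 2 ≤ y → cc U ≤ cc ((y, 0) ::ₘ U))
    (hP : ∀ N U y, 2 ≤ y → U ∈ P N → ((y, 0) ::ₘ U) ∈ P (N + y))
    (hsum : ∀ N, ∀ U ∈ P N, (U.map Prod.fst).sum = N)
    {z w q : ℕ} (hz : 8 ≤ z) (hq : 4 * w * q ≤ z ^ 2) :
    ∀ k N : ℕ, k * z ≤ N → N ≤ w →
      q ^ k * ∑ U ∈ P (N - k * z), cc U ≤ ∑ U ∈ P N, cc U := by
  intro k
  induction k with
  | zero => intro N h1 h2; simp
  | succ k ih =>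
    intro N h1 h2
    have h3 : (k + 1) * z = k * z + z := by ring
    have hw : 0 < w := by omega
    have h4 := growth cc P hcc hP hsum (N := N - k * z) (z := z) (w := w) hz (by omega) (by omega)
    have h5 := ih N (by omega) h2
    have h6 : N - k * z - z = N - (k + 1) * z := by omega
    rw [h6] at h4
    have h7 : q * ∑ U ∈ P (N - (k + 1) * z), cc U ≤ ∑ U ∈ P (N - k * z), cc U := by
      have h8 : 4 * w * (q * ∑ U ∈ P (N - (k + 1) * z), cc U) ≤
          4 * w * ∑ U ∈ P (N - k * z), cc U := by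
        calc 4 * w * (q * ∑ U ∈ P (N - (k + 1) * z), cc U)
            = (4 * w * q) * ∑ U ∈ P (N - (k + 1) * z), cc U := by ring
          _ ≤ z ^ 2 * ∑ U ∈ P (N - (k + 1) * z), cc U := Nat.mul_le_mul_right _ hq
          _ ≤ _ := h4
      exact Nat.le_of_mul_le_mul_left h8 (by omega)
    calc q ^ (k + 1) * ∑ U ∈ P (N - (k + 1) * z), cc U
        = q ^ k * (q * ∑ U ∈ P (N - (k + 1) * z), cc U) := by ring
      _ ≤ q ^ k * ∑ U ∈ P (N - k * z), cc U := Nat.mul_le_mul_left _ h7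
      _ ≤ _ := h5

end Vale.Agent.P181.O2.H810
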